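import Vale.Agent.P060.Switch

/-!
P060: the two consequences of the switching lemma.
-/

namespace Vale.Agent.P060Dense

open Finset

variable {V : Type*} [Fintype V] [DecidableEq V]

theorem halfMinor {G : SimpleGraph V} (d : ℕ) (hd : ∀ v, (non G v).card ≤ d)
    (hn : 625 * (d + 1) ^ 3 ≤ Fintype.card V ^ 2) :
    HasCompleteMinor G ((Fintype.card V + 1) / 2) := by
  set n := Fintype.card V with hn'
  set r := Nat.sqrt d with hr
  have h1 : d < (r + 1) * (r + 1) := Nat.lt_succ_sqrt d
  have h2 : r * r ≤ d := Nat.sqrt_le d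
  have h3 : r ≤ d := Nat.sqrt_le_self d
  have hdiv : d * d / (r + 1) ≤ d * (r + 1) := by
    refine Nat.div_le_of_le_mul ?_
    calc d * d ≤ d * ((r + 1) * (r + 1)) := Nat.mul_le_mul_left d h1.le
      _ = (r + 1) * (d * (r + 1)) := by ring
  have hbn : 5 * (d + 1) * (2 * r + 3) ≤ n := by
    refine (pow_le_pow_iff_left₀ (Nat.zero_le _) (Nat.zero_le _) two_ne_zero).1 (le_trans ?_ hn)
    have h4 : (2 * r + 3) ^ 2 ≤ 25 * (d + 1) := by nlinarith
    calc (5 * (d + 1) * (2 * r + 3)) ^ 2 = 25 * (d + 1) ^ 2 * (2 * r + 3) ^ 2 := by ring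
      _ ≤ 25 * (d + 1) ^ 2 * (25 * (d + 1)) := Nat.mul_le_mul_left _ h4
      _ = 625 * (d + 1) ^ 3 := by ring
  have hb : d + d * d / (r + 1) + 1 * d + d * r ≤ d * (2 * r + 3) := by
    calc d + d * d / (r + 1) + 1 * d + d * r ≤ d + d * (r + 1) + 1 * d + d * r := by omega
      _ = d * (2 * r + 3) := by ring
  have hbn' : 5 * (d * (2 * r + 3)) + 15 ≤ n := by nlinarith
  rcases Nat.even_or_odd n with ⟨k, hk⟩ | ⟨k, hk⟩
  · have h := minor_of_switch (G := G) ∅ univ r d 1 (by simp) (by simp) hd (by simp)
      (by rw [card_univ]; omega)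
    rw [card_univ, ← hn', card_empty] at h
    exact h.mono (by omega)
  · have hpos : 0 < Fintype.card V := by omega
    obtain ⟨v⟩ : Nonempty V := Fintype.card_pos_iff.1 hpos
    have hc : (univ.erase v).card = n - 1 := by rw [card_erase_of_mem (mem_univ v), card_univ]
    have h := minor_of_switch (G := G) {v} (univ.erase v) r d 1 (by simp) (by simp) hd
      (fun x _ => le_trans (card_le_card inter_subset_right) (by simp)) (by omega)
    rw [hc, card_singleton] at h
    exact h.mono (by omega)

/-- Colouring by repeatedly pairing two non-adjacent vertices. -/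
theorem colour_aux (G : SimpleGraph V) : ∀ (k : ℕ) (A : Finset V), A.card ≤ k →
    ∃ (c : ℕ) (f : V → ℕ), 2 * c ≤ A.card + G.cliqueNum ∧ (∀ v ∈ A, f v < c) ∧
      ∀ u ∈ A, ∀ v ∈ A, G.Adj u v → f u ≠ f v := by
  intro k
  induction k with
  | zero =>
    intro A hA
    have : A = ∅ := card_eq_zero.1 (by omega)
    exact ⟨0, fun _ => 0, by omega, by simp [this], by simp [this]⟩
  | succ k ih =>
    intro A hA
    by_cases hcl : G.IsClique (A : Set V)
    · have := hcl.card_le_cliqueNum
      let e := A.equivFin
      refine ⟨A.card, fun v => if h : v ∈ A then e ⟨v, h⟩ else 0, by omega, ?_, ?_⟩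
      · intro v hv
        simp [hv]
      · intro u hu v hv huv
        simp only [hu, hv, dif_pos, ne_eq]
        intro h
        exact huv.ne (congrArg Subtype.val (e.injective (Fin.ext h)))
    · rw [SimpleGraph.isClique_iff, Set.Pairwise] at hcl
      push_neg at hcl
      obtain ⟨x, hx, y, hy, hxy, hno⟩ := hcl
      have hx' : x ∈ A := by simpa using hx
      have hy' : y ∈ A := by simpa using hy
      set A' := (A.erase x).erase y
      have hyx : y ∈ A.erase x := mem_erase.2 ⟨hxy.symm, hy'⟩
      have hc : A'.card + 2 = A.card := by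
        have h1 := card_erase_add_one hx'
        have h2 := card_erase_add_one hyx
        simp only [A']
        omega
      obtain ⟨c, f, h1, h2, h3⟩ := ih A' (by omega)
      refine ⟨c + 1, fun v => if v = x ∨ v = y then c else f v, by omega, ?_, ?_⟩
      · intro v hv
        by_cases h : v = x ∨ v = y
        · simp [h]
        · have : v ∈ A' := by simp only [not_or] at h; simp [A', h.1, h.2, hv]
          simp only [h, if_false]
          have := h2 v this
          omega
      · intro u hu v hv huv
        by_cases h : u = x ∨ u = y <;> by_cases h' : v = x ∨ v = y <;> simp only [h, h', if_true, if_false]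
        · rcases h with rfl | rfl <;> rcases h' with rfl | rfl
          exacts [absurd rfl huv.ne, absurd huv hno, absurd huv.symm hno, absurd rfl huv.ne]
        · have : v ∈ A' := by simp only [not_or] at h'; simp [A', h'.1, h'.2, hv]
          exact (h2 v this).ne'
        · have : u ∈ A' := by simp only [not_or] at h; simp [A', h.1, h.2, hu]
          exact (h2 u this).ne
        · refine h3 u ?_ v ?_ huv
          · simp only [not_or] at h; simp [A', h.1, h.2, hu]
          · simp only [not_or] at h'; simp [A', h'.1, h'.2, hv]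

theorem two_mul_chromatic_le (G : SimpleGraph V) :
    ∃ c, G.Colorable c ∧ 2 * c ≤ Fintype.card V + G.cliqueNum := by
  obtain ⟨c, f, h1, h2, h3⟩ := colour_aux G (Fintype.card V) univ (by simp)
  refine ⟨c, ⟨SimpleGraph.Coloring.mk (fun v => (⟨f v, h2 v (mem_univ v)⟩ : Fin c)) ?_⟩, ?_⟩
  · intro u v huv h
    exact h3 u (mem_univ u) v (mem_univ v) huv (congrArg Fin.val h)
  · simpa using h1

theorem hadwiger_dense {G : SimpleGraph V} (d : ℕ) (hd : ∀ v, (non G v).card ≤ d)
    (hn : 10 * (d + 1) ^ 3 ≤ (univ.filter (fun v => (non G v).Nonempty)).card) :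
    ∃ t, G.Colorable t ∧ HasCompleteMinor G t := by
  obtain ⟨U, hU⟩ := G.exists_isNClique_cliqueNum
  set W := univ \ U with hW
  have hcard : W.card + G.cliqueNum = Fintype.card V := by
    rw [← hU.card_eq, hW, card_sdiff_add_card_eq_card (subset_univ U), card_univ]
  have hsub : univ.filter (fun v => (non G v).Nonempty) ⊆ W ∪ W.biUnion (fun w => non G w) := by
    intro v hv
    simp only [mem_filter, mem_univ, true_and] at hv
    obtain ⟨z, hz⟩ := hv
    by_cases hvU : v ∈ U
    · refine mem_union_right _ (mem_biUnion.2 ⟨z, ?_, mem_non_comm.1 hz⟩)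
      simp only [hW, mem_sdiff, mem_univ, true_and]
      intro hzU
      exact (mem_non.1 hz).2 (hU.isClique (by simpa using hvU) (by simpa using hzU) (mem_non.1 hz).1)
    · exact mem_union_left _ (by simp [hW, hvU])
  have hWbig : 10 * (d + 1) ^ 3 ≤ (d + 1) * W.card := by
    refine le_trans hn (le_trans (card_le_card hsub) (le_trans (card_union_le _ _) ?_))
    have := card_biUnion_le_card_mul W (fun w => non G w) d (fun w _ => hd w)
    nlinarith
  have hW2 : 10 * (d + 1) ^ 2 ≤ W.card := by
    refine Nat.le_of_mul_le_mul_left (le_of_eq_of_le ?_ hWbig) (Nat.succ_pos d)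
    ring
  have h := minor_of_switch (G := G) U W 0 d d hU.isClique
    (by simp [hW, Finset.disjoint_sdiff]) hd
    (fun x _ => le_trans (card_le_card inter_subset_left) (hd x)) (by simp; nlinarith)
  obtain ⟨c, hc, hc2⟩ := two_mul_chromatic_le G
  refine ⟨c, hc, h.mono ?_⟩
  rw [hU.card_eq]
  omega

end Vale.Agent.P060Dense
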