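import Mathlib

/-!
P060: definition of complete minors by branch sets, used in the statement of the hand-in.
-/

namespace Vale.Agent.P060Dense

/-- `G` has a `K_t` minor: there are `t` pairwise disjoint nonempty vertex sets, each inducing a
connected subgraph, with an edge of `G` between any two of them. -/
def HasCompleteMinor {V : Type*} (G : SimpleGraph V) (t : ℕ) : Prop :=
  ∃ B : Fin t → Set V,
    (∀ i, (B i).Nonempty ∧ (G.induce (B i)).Connected) ∧
    (∀ i j, i ≠ j → Disjoint (B i) (B j) ∧ ∃ x ∈ B i, ∃ y ∈ B j, G.Adj x y)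

theorem HasCompleteMinor.mono {V : Type*} {G : SimpleGraph V} {s t : ℕ}
    (h : HasCompleteMinor G t) (hst : s ≤ t) : HasCompleteMinor G s := by
  obtain ⟨B, hB, hB'⟩ := h
  refine ⟨fun i => B (Fin.castLE hst i), fun i => hB _, fun i j hij => hB' _ _ ?_⟩
  simpa using hij

/-- A complete minor from a clique of singles together with pairwise adjacent edges. -/
theorem hasCompleteMinor_of_family {V : Type*} {G : SimpleGraph V} {ι : Type*} [Fintype ι]
    (a b : ι → V) (hedge : ∀ i, a i = b i ∨ G.Adj (a i) (b i))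
    (hdisj : ∀ i j, i ≠ j → a i ≠ a j ∧ a i ≠ b j ∧ b i ≠ a j ∧ b i ≠ b j)
    (hadj : ∀ i j, i ≠ j →
      G.Adj (a i) (a j) ∨ G.Adj (a i) (b j) ∨ G.Adj (b i) (a j) ∨ G.Adj (b i) (b j)) :
    HasCompleteMinor G (Fintype.card ι) := by
  classical
  let e := (Fintype.equivFin ι).symm
  refine ⟨fun i => {a (e i), b (e i)}, fun i => ⟨⟨a (e i), by simp⟩, ?_⟩, fun i j hij => ⟨?_, ?_⟩⟩
  · show (G.induce ({a (e i), b (e i)} : Set V)).Connected
    rcases hedge (e i) with h | h
    · rw [show ({a (e i), b (e i)} : Set V) = {b (e i)} by simp [h]]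
      exact ⟨SimpleGraph.Preconnected.of_subsingleton⟩
    · exact SimpleGraph.induce_pair_connected_of_adj h
  · obtain ⟨h1, h2, h3, h4⟩ := hdisj (e i) (e j) (by simpa using hij)
    rw [Set.disjoint_left]
    intro x hx hy
    simp only [Set.mem_insert_iff, Set.mem_singleton_iff] at hx hy
    rcases hx with rfl | rfl <;> rcases hy with hy | hy
    exacts [h1 hy, h2 hy, h3 hy, h4 hy]
  · rcases hadj (e i) (e j) (by simpa using hij) with h | h | h | h
    exacts [⟨_, by simp, _, by simp, h⟩, ⟨_, by simp, _, by simp, h⟩,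
      ⟨_, by simp, _, by simp, h⟩, ⟨_, by simp, _, by simp, h⟩]

end Vale.Agent.P060Dense
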