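import Vale.Agent.P060.Minor

/-!
P060: a switching argument producing a perfect pairing whose pairs are pairwise adjacent branch
sets, when the complement has small maximum degree.
-/

namespace Vale.Agent.P060Dense

open Finset

variable {V : Type*} [Fintype V]

/-- Non-neighbours of `x` (other than `x`). -/
noncomputable def non (G : SimpleGraph V) (x : V) : Finset V := by
  classical
  exact univ.filter (fun z => x ≠ z ∧ ¬ G.Adj x z)

theorem mem_non {G : SimpleGraph V} {x z : V} : z ∈ non G x ↔ x ≠ z ∧ ¬ G.Adj x z := by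
  classical
  simp [non]

theorem mem_non_comm {G : SimpleGraph V} {x z : V} : z ∈ non G x ↔ x ∈ non G z := by
  simp only [mem_non, ne_comm, G.adj_comm]

theorem adj_of_not_mem_non {G : SimpleGraph V} {x z : V} (h : x ≠ z) (hz : z ∉ non G x) :
    G.Adj x z := by
  by_contra hc
  exact hz (mem_non.2 ⟨h, hc⟩)

variable [DecidableEq V]

/-- An admissible pair. -/
def GoodPair (G : SimpleGraph V) (S W : Finset V) (K : ℕ) (p : V × V) : Prop :=
  p.1 ∈ W ∧ p.2 ∈ W ∧ G.Adj p.1 p.2 ∧ (non G p.1 ∩ non G p.2).card ≤ K ∧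
    ∀ u ∈ S, ¬(u ∈ non G p.1 ∧ u ∈ non G p.2)

/-- Two pairs are disjoint and joined by an edge of `G`. -/
def Compat (G : SimpleGraph V) (p q : V × V) : Prop :=
  (p.1 ≠ q.1 ∧ p.1 ≠ q.2 ∧ p.2 ≠ q.1 ∧ p.2 ≠ q.2) ∧
    ¬(q.1 ∈ non G p.1 ∧ q.2 ∈ non G p.1 ∧ q.1 ∈ non G p.2 ∧ q.2 ∈ non G p.2)

theorem Compat.symm {G : SimpleGraph V} {p q : V × V} (h : Compat G p q) : Compat G q p := by
  obtain ⟨⟨h1, h2, h3, h4⟩, h5⟩ := h
  refine ⟨⟨h1.symm, h3.symm, h2.symm, h4.symm⟩, fun ⟨a, b, c, d⟩ => h5 ?_⟩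
  exact ⟨mem_non_comm.1 a, mem_non_comm.1 c, mem_non_comm.1 b, mem_non_comm.1 d⟩

/-- An admissible set of pairs. -/
def GoodSet (G : SimpleGraph V) (S W : Finset V) (K : ℕ) (P : Finset (V × V)) : Prop :=
  (∀ p ∈ P, GoodPair G S W K p) ∧ ∀ p ∈ P, ∀ q ∈ P, p ≠ q → Compat G p q

/-- Vertices that may not be paired with `x`. -/
noncomputable def bad (G : SimpleGraph V) (S : Finset V) (K : ℕ) (P : Finset (V × V)) (x : V) :
    Finset V :=
  non G x ∪ univ.filter (fun z => K < (non G x ∩ non G z).card) ∪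
    (non G x ∩ S).biUnion (fun u => non G u) ∪
    (P.filter (fun p => p.1 ∈ non G x ∧ p.2 ∈ non G x)).biUnion (fun p => non G p.1 ∩ non G p.2)

theorem not_bad_pair {G : SimpleGraph V} {S W : Finset V} {K : ℕ} {P : Finset (V × V)} {x z : V}
    (hx : x ∈ W) (hz : z ∈ W) (hxz : x ≠ z) (h : z ∉ bad G S K P x) :
    GoodPair G S W K (x, z) ∧ ∀ q ∈ P, ¬(q.1 ∈ non G x ∧ q.2 ∈ non G x ∧
      q.1 ∈ non G z ∧ q.2 ∈ non G z) := by
  simp only [bad, mem_union, mem_filter, mem_univ, true_and, mem_biUnion, mem_inter, not_or,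
    not_exists, not_and, not_lt] at h
  obtain ⟨⟨⟨h1, h2⟩, h3⟩, h4⟩ := h
  refine ⟨⟨hx, hz, adj_of_not_mem_non hxz h1, h2, fun u hu hu' => ?_⟩, fun q hq hq' => ?_⟩
  · exact h3 u ⟨hu'.1, hu⟩ (mem_non_comm.1 hu'.2)
  · exact h4 q ⟨hq, hq'.1, hq'.2.1⟩ (mem_non_comm.1 hq'.2.2.1) (mem_non_comm.1 hq'.2.2.2)

theorem heavy_card {G : SimpleGraph V} {d : ℕ} (hd : ∀ v, (non G v).card ≤ d) (K : ℕ) (x : V) :
    (univ.filter (fun z => K < (non G x ∩ non G z).card)).card * (K + 1) ≤ d * d := by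
  calc (univ.filter (fun z => K < (non G x ∩ non G z).card)).card * (K + 1)
      = ∑ _z ∈ univ.filter (fun z => K < (non G x ∩ non G z).card), (K + 1) := by simp
    _ ≤ ∑ z ∈ univ.filter (fun z => K < (non G x ∩ non G z).card), (non G x ∩ non G z).card := by
        refine sum_le_sum fun z hz => ?_
        simp only [mem_filter] at hz
        omega
    _ ≤ ∑ z : V, (non G x ∩ non G z).card :=
        sum_le_sum_of_subset_of_nonneg (subset_univ _) (fun _ _ _ => Nat.zero_le _)
    _ = ∑ c ∈ non G x, (non G c).card := by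
        have e : ∀ z, (non G x ∩ non G z).card = ∑ c ∈ non G x, if z ∈ non G c then 1 else 0 := by
          intro z
          rw [← card_filter]
          congr 1
          ext c
          simp [mem_non_comm (x := c) (z := z)]
        simp_rw [e]
        rw [sum_comm]
        refine sum_congr rfl fun c _ => ?_
        rw [← card_filter]
        simp
    _ ≤ ∑ _c ∈ non G x, d := sum_le_sum fun c _ => hd c
    _ ≤ d * d := by simpa using Nat.mul_le_mul_right d (hd x)

theorem bad_card {G : SimpleGraph V} {S W : Finset V} {K d s : ℕ} {P : Finset (V × V)}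
    (hP : GoodSet G S W K P) (hd : ∀ v, (non G v).card ≤ d) (x : V)
    (hs : (non G x ∩ S).card ≤ s) :
    (bad G S K P x).card ≤ d + d * d / (K + 1) + s * d + d * K := by
  have h1 := hd x
  have h2 : (univ.filter (fun z => K < (non G x ∩ non G z).card)).card ≤ d * d / (K + 1) :=
    (Nat.le_div_iff_mul_le (Nat.succ_pos K)).2 (heavy_card hd K x)
  have h3 : ((non G x ∩ S).biUnion (fun u => non G u)).card ≤ s * d :=
    le_trans (card_biUnion_le_card_mul _ _ d (fun u _ => hd u)) (Nat.mul_le_mul_right d hs)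
  have h4 : ((P.filter (fun p => p.1 ∈ non G x ∧ p.2 ∈ non G x)).biUnion
      (fun p => non G p.1 ∩ non G p.2)).card ≤ d * K := by
    refine le_trans (card_biUnion_le_card_mul _ _ K (fun p hp => (hP.1 p (mem_filter.1 hp).1).2.2.2.1))
      (Nat.mul_le_mul_right K ?_)
    refine le_trans ?_ (hd x)
    refine card_le_card_of_injOn Prod.fst (fun p hp => (mem_filter.1 hp).2.1) ?_
    intro p hp q hq hpq
    by_contra hne
    exact (hP.2 p (mem_filter.1 hp).1 q (mem_filter.1 hq).1 hne).1.1 hpq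
  have u1 := card_union_le (non G x) (univ.filter (fun z => K < (non G x ∩ non G z).card))
  unfold bad
  refine le_trans (card_union_le _ _) ?_
  refine le_trans (Nat.add_le_add_right (card_union_le _ _) _) ?_
  omega

/-- One augmentation step. -/
theorem augment {G : SimpleGraph V} {S W : Finset V} {K d s : ℕ} {P : Finset (V × V)}
    (hP : GoodSet G S W K P) (hd : ∀ v, (non G v).card ≤ d)
    (hs : ∀ x ∈ W, (non G x ∩ S).card ≤ s)
    (hm : 5 * (d + d * d / (K + 1) + s * d + d * K) + 2 ≤ W.card)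
    (hk : 2 * P.card + 2 ≤ W.card) :
    ∃ P', GoodSet G S W K P' ∧ P'.card = P.card + 1 := by
  set b := d + d * d / (K + 1) + s * d + d * K with hb
  set E := P.image Prod.fst ∪ P.image Prod.snd with hE
  have hEcard : E.card ≤ 2 * P.card := by
    have h1 : (P.image Prod.fst).card ≤ P.card := card_image_le
    have h2 : (P.image Prod.snd).card ≤ P.card := card_image_le
    have := card_union_le (P.image Prod.fst) (P.image Prod.snd)
    rw [hE]
    omega
  have hfree : 2 ≤ (W \ E).card := by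
    have := le_card_sdiff E W
    omega
  obtain ⟨x, hx, y, hy, hxy⟩ := one_lt_card.1 hfree
  simp only [mem_sdiff] at hx hy
  have hxb : (bad G S K P x).card ≤ b := bad_card hP hd x (hs x hx.1)
  have hyb : (bad G S K P y).card ≤ b := bad_card hP hd y (hs y hy.1)
  have hne : ∀ v ∉ E, ∀ q ∈ P, v ≠ q.1 ∧ v ≠ q.2 := by
    intro v hv q hq
    simp only [hE, mem_union, mem_image, not_or, not_exists, not_and] at hv
    exact ⟨fun h => hv.1 q hq h.symm, fun h => hv.2 q hq h.symm⟩
  by_cases hz : ∃ z ∈ W \ E, z ≠ x ∧ z ∉ bad G S K P x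
  · obtain ⟨z, hzW, hzx, hzb⟩ := hz
    simp only [mem_sdiff] at hzW
    obtain ⟨hgood, hconf⟩ := not_bad_pair hx.1 hzW.1 (Ne.symm hzx) hzb
    have hc : ∀ q ∈ P, Compat G (x, z) q := fun q hq =>
      ⟨⟨(hne x hx.2 q hq).1, (hne x hx.2 q hq).2, (hne z hzW.2 q hq).1, (hne z hzW.2 q hq).2⟩,
        hconf q hq⟩
    have hnot : (x, z) ∉ P := fun h => (hne x hx.2 _ h).1 rfl
    refine ⟨insert (x, z) P, ⟨?_, ?_⟩, card_insert_of_notMem hnot⟩
    · intro p hp
      rcases mem_insert.1 hp with rfl | hp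
      exacts [hgood, hP.1 p hp]
    · intro p hp q hq hpq
      rcases mem_insert.1 hp with rfl | hp <;> rcases mem_insert.1 hq with rfl | hq
      exacts [absurd rfl hpq, hc q hq, (hc p hp).symm, hP.2 p hp q hq hpq]
  · push_neg at hz
    have hfreele : (W \ E).card ≤ b + 1 := by
      refine le_trans (card_le_card (t := insert x (bad G S K P x)) fun z hz' => ?_) ?_
      · by_cases h : z = x
        · simp [h]
        · exact mem_insert_of_mem (hz z hz' h)
      · exact le_trans (card_insert_le _ _) (by omega)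
    have hbig : 2 * b < P.card := by
      have := le_card_sdiff E W
      omega
    have hex : ∃ p ∈ P, p.1 ∉ bad G S K P x ∧ p.2 ∉ bad G S K P y := by
      by_contra hcon
      push_neg at hcon
      have hsub : P ⊆ P.filter (fun p => p.1 ∈ bad G S K P x) ∪
          P.filter (fun p => p.2 ∈ bad G S K P y) := by
        intro p hp
        simp only [mem_union, mem_filter]
        by_cases h : p.1 ∈ bad G S K P x
        · exact Or.inl ⟨hp, h⟩
        · exact Or.inr ⟨hp, hcon p hp h⟩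
      have c1 : (P.filter (fun p => p.1 ∈ bad G S K P x)).card ≤ b := by
        refine le_trans (card_le_card_of_injOn Prod.fst (fun p hp => (mem_filter.1 hp).2) ?_) hxb
        intro p hp q hq hpq
        by_contra hne'
        exact (hP.2 p (mem_filter.1 hp).1 q (mem_filter.1 hq).1 hne').1.1 hpq
      have c2 : (P.filter (fun p => p.2 ∈ bad G S K P y)).card ≤ b := by
        refine le_trans (card_le_card_of_injOn Prod.snd (fun p hp => (mem_filter.1 hp).2) ?_) hyb
        intro p hp q hq hpq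
        by_contra hne'
        exact (hP.2 p (mem_filter.1 hp).1 q (mem_filter.1 hq).1 hne').1.2.2.2 hpq
      have := card_le_card hsub
      have := card_union_le (P.filter (fun p => p.1 ∈ bad G S K P x))
          (P.filter (fun p => p.2 ∈ bad G S K P y))
      omega
    obtain ⟨⟨e, f⟩, hp, he, hf⟩ := hex
    obtain ⟨heW, hfW, hef, -, -⟩ := hP.1 _ hp
    simp only at he hf heW hfW hef
    have hxe := (hne x hx.2 _ hp).1
    have hxf := (hne x hx.2 _ hp).2
    have hye := (hne y hy.2 _ hp).1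
    have hyf := (hne y hy.2 _ hp).2
    obtain ⟨g1, k1⟩ := not_bad_pair hx.1 heW hxe he
    obtain ⟨g2, k2⟩ := not_bad_pair hy.1 hfW hyf hf
    set Q := P.erase (e, f) with hQ
    have hnew : Compat G (x, e) (y, f) := by
      refine ⟨⟨hxy, hxf, fun h => hye h.symm, hef.ne⟩, fun h => ?_⟩
      exact (mem_non.1 h.2.2.2).2 hef
    have hc1 : ∀ q ∈ Q, Compat G (x, e) q := by
      intro q hq
      obtain ⟨hqe, hqP⟩ := mem_erase.1 hq
      have hd' := (hP.2 _ hp q hqP (Ne.symm hqe)).1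
      exact ⟨⟨(hne x hx.2 q hqP).1, (hne x hx.2 q hqP).2, hd'.1, hd'.2.1⟩, k1 q hqP⟩
    have hc2 : ∀ q ∈ Q, Compat G (y, f) q := by
      intro q hq
      obtain ⟨hqe, hqP⟩ := mem_erase.1 hq
      have hd' := (hP.2 _ hp q hqP (Ne.symm hqe)).1
      exact ⟨⟨(hne y hy.2 q hqP).1, (hne y hy.2 q hqP).2, hd'.2.2.1, hd'.2.2.2⟩, k2 q hqP⟩
    have hn1 : (y, f) ∉ Q := fun h => (hne y hy.2 _ (mem_of_mem_erase h)).1 rfl
    have hn2 : (x, e) ∉ insert (y, f) Q := by
      intro h
      rcases mem_insert.1 h with h | h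
      · exact hxy (congrArg Prod.fst h)
      · exact (hne x hx.2 _ (mem_of_mem_erase h)).1 rfl
    refine ⟨insert (x, e) (insert (y, f) Q), ⟨?_, ?_⟩, ?_⟩
    · intro p hp'
      rcases mem_insert.1 hp' with rfl | hp'
      · exact g1
      rcases mem_insert.1 hp' with rfl | hp'
      exacts [g2, hP.1 p (mem_of_mem_erase hp')]
    · intro p hp' q hq' hpq
      simp only [mem_insert] at hp' hq'
      rcases hp' with rfl | rfl | hp' <;> rcases hq' with rfl | rfl | hq'
      exacts [absurd rfl hpq, hnew, hc1 q hq', hnew.symm, absurd rfl hpq, hc2 q hq',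
        (hc1 p hp').symm, (hc2 p hp').symm,
        hP.2 p (mem_of_mem_erase hp') q (mem_of_mem_erase hq') hpq]
    · rw [card_insert_of_notMem hn2, card_insert_of_notMem hn1, hQ, card_erase_of_mem hp]
      omega

/-- A clique `S` of singles plus a perfect pairing of a disjoint set `W` gives a complete minor. -/
theorem minor_of_switch {G : SimpleGraph V} (S W : Finset V) (K d s : ℕ)
    (hS : G.IsClique (S : Set V)) (hSW : Disjoint S W) (hd : ∀ v, (non G v).card ≤ d)
    (hs : ∀ x ∈ W, (non G x ∩ S).card ≤ s)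
    (hm : 5 * (d + d * d / (K + 1) + s * d + d * K) + 2 ≤ W.card) :
    HasCompleteMinor G (S.card + W.card / 2) := by
  have hk : ∀ k, k ≤ W.card / 2 → ∃ P, GoodSet G S W K P ∧ P.card = k := by
    intro k
    induction k with
    | zero => exact fun _ => ⟨∅, ⟨by simp, by simp⟩, by simp⟩
    | succ k ih =>
      intro hk
      obtain ⟨P, hP, hPc⟩ := ih (by omega)
      obtain ⟨P', h1, h2⟩ := augment hP hd hs hm (by omega)
      exact ⟨P', h1, by omega⟩
  obtain ⟨P, hP, hPc⟩ := hk _ le_rfl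
  have key : ∀ (u : V), u ∈ S → ∀ p ∈ P, (u ≠ p.1 ∧ u ≠ p.2) ∧ (G.Adj u p.1 ∨ G.Adj u p.2) := by
    intro u hu p hp
    obtain ⟨h1, h2, -, -, h5⟩ := hP.1 p hp
    have n1 : u ≠ p.1 := fun h => Finset.disjoint_left.1 hSW hu (h ▸ h1)
    have n2 : u ≠ p.2 := fun h => Finset.disjoint_left.1 hSW hu (h ▸ h2)
    refine ⟨⟨n1, n2⟩, ?_⟩
    by_contra hc
    push_neg at hc
    exact h5 u hu ⟨mem_non_comm.1 (mem_non.2 ⟨n1, hc.1⟩), mem_non_comm.1 (mem_non.2 ⟨n2, hc.2⟩)⟩
  let a : S ⊕ P → V := Sum.elim (fun u => u.1) (fun p => p.1.1)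
  let b : S ⊕ P → V := Sum.elim (fun u => u.1) (fun p => p.1.2)
  have h := hasCompleteMinor_of_family (G := G) a b ?_ ?_ ?_
  · simpa [hPc] using h
  · rintro (u | p)
    exacts [Or.inl rfl, Or.inr (hP.1 p.1 p.2).2.2.1]
  · rintro (⟨u, hu⟩ | ⟨p, hp⟩) (⟨v, hv⟩ | ⟨q, hq⟩) hne <;> simp only [a, b, Sum.elim_inl, Sum.elim_inr]
    · have : u ≠ v := fun h => hne (by subst h; rfl)
      exact ⟨this, this, this, this⟩
    · obtain ⟨⟨n1, n2⟩, -⟩ := key u hu q hq
      exact ⟨n1, n2, n1, n2⟩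
    · obtain ⟨⟨n1, n2⟩, -⟩ := key v hv p hp
      exact ⟨n1.symm, n1.symm, n2.symm, n2.symm⟩
    · exact (hP.2 p hp q hq (fun h => hne (by subst h; rfl))).1
  · rintro (⟨u, hu⟩ | ⟨p, hp⟩) (⟨v, hv⟩ | ⟨q, hq⟩) hne <;> simp only [a, b, Sum.elim_inl, Sum.elim_inr]
    · exact Or.inl (hS hu hv (fun h => hne (by subst h; rfl)))
    · rcases (key u hu q hq).2 with h | h
      exacts [Or.inl h, Or.inr (Or.inl h)]
    · rcases (key v hv p hp).2 with h | h
      exacts [Or.inl h.symm, Or.inr (Or.inr (Or.inl h.symm))]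
    · obtain ⟨⟨d1, d2, d3, d4⟩, hc⟩ := hP.2 p hp q hq (fun h => hne (by subst h; rfl))
      by_contra hno
      simp only [not_or] at hno
      exact hc ⟨mem_non.2 ⟨d1, hno.1⟩, mem_non.2 ⟨d2, hno.2.1⟩, mem_non.2 ⟨d3, hno.2.2.1⟩,
        mem_non.2 ⟨d4, hno.2.2.2⟩⟩

end Vale.Agent.P060Dense
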